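import Vale.Agent.P092.QT.H650.Alg2S

/-!
P092 (helper58, after helper328), tight frames, block A-PSL: a nonzero smooth field for a homomorphism `κ : Λ → H` gives a nonzero
smooth field for the composition `Λ → H → H / Z`, `Z` a finite normal subgroup: take the sum over `z`
in `Z` of `α_z (b* b)`.
-/

set_option linter.all false

open scoped InnerProductSpace Topology ENNReal
open Filter ContinuousLinearMap MeasureTheory
open Vale.Agent.P092.H160 (Cmm mul_ap)
open Vale.Agent.P092.QT.H156.Sm

namespace Vale.Agent.P092.QT.H328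

open Vale.Agent.P092.QT.H650

variable {Γ Λ G H K : Type} [Group Γ] [Group Λ] [Group G] [Group H]
  [TopologicalSpace G] [TopologicalSpace H] [IsTopologicalGroup G] [IsTopologicalGroup H]
  [MeasurableSpace G] [BorelSpace G] [SecondCountableTopology G]
  [NormedAddCommGroup K] [InnerProductSpace ℂ K] [CompleteSpace K]
  {ρ : Γ →* (K →L[ℂ] K)} {V : Λ →* (K →L[ℂ] K)} {ω : K} {ι : Γ →* G} {κ : Λ →* H}
  {μ : Measure G} {a b : G → K →L[ℂ] K}

theorem smo_sum {I : Type} (s : Finset I) (f : I → G → K →L[ℂ] K)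
    (hf : ∀ i, Smo ι κ ρ V ω μ (f i)) : Smo ι κ ρ V ω μ (fun x => ∑ i ∈ s, f i x) := by
  classical
  induction s using Finset.induction_on with
  | empty => simpa using (smo_zero : Smo ι κ ρ V ω μ (fun _ : G => (0 : K →L[ℂ] K)))
  | insert i s hi ih =>
    have := smo_add (hf i) ih
    simpa [Finset.sum_insert hi] using this

theorem al_sum (hF : Frm ρ V ω) (hd : DenseRange κ) {I : Type} (s : Finset I)
    (f : I → G → K →L[ℂ] K) (hf : ∀ i, Smo ι κ ρ V ω μ (f i)) (h : H) (x : G) :
    al κ V h (fun x => ∑ i ∈ s, f i x) x = ∑ i ∈ s, al κ V h (f i) x := by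
  classical
  induction s using Finset.induction_on with
  | empty => simpa using al_zero hF hd h x
  | insert i s hi ih =>
    have h1 := al_add hF hd (hf i).acont (smo_sum s f hf).acont h x
    simp only [Finset.sum_insert hi]
    rw [h1, ih]

/-- A nonzero smooth field for `κ` gives one for the quotient by a finite normal subgroup. -/
theorem exists_smo_quot [Countable Γ] [μ.IsMulLeftInvariant] (hF : Frm ρ V ω)
    (hd : DenseRange κ) (Z : Subgroup H) [Z.Normal] [Finite Z]
    (hb : Smo ι κ ρ V ω μ b) (h0 : b ≠ 0) :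
    ∃ c, Smo ι ((QuotientGroup.mk' Z).comp κ) ρ V ω μ c ∧ c ≠ 0 := by
  classical
  haveI := Fintype.ofFinite Z
  set bb : G → K →L[ℂ] K := fun x => adjoint (b x) * b x with hbb
  have sbb : Smo ι κ ρ V ω μ bb := smo_mul hF (smo_adj hF hb) hb
  set f : Z → G → K →L[ℂ] K := fun z => al κ V (z : H) bb with hf
  have sf : ∀ z, Smo ι κ ρ V ω μ (f z) := fun z => smo_al hF hd sbb _
  set c : G → K →L[ℂ] K := fun x => ∑ z : Z, f z x with hc
  have sc : Smo ι κ ρ V ω μ c := smo_sum _ f sf
  have hz : ∀ (z : Z) x, al κ V (z : H) c x = c x := by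
    intro z x
    rw [hc, al_sum hF hd _ f sf]
    have h1 : ∀ w : Z, al κ V (z : H) (f w) x = f (z * w) x := fun w => by
      rw [hf]
      beta_reduce
      rw [al_al hF hd sbb.acont]
      rfl
    simp only [h1]
    exact Equiv.sum_comp (Equiv.mulLeft z) fun w => f w x
  refine ⟨c, ⟨sc.toFd, fun ε hε => ?_, sc.l2⟩, ?_⟩
  · obtain ⟨U, hU, hUU⟩ := sc.acont ε hε
    obtain ⟨O, hOU, hO, h1O⟩ := mem_nhds_iff.1 hU
    refine ⟨(QuotientGroup.mk' Z) '' O, ?_, ?_⟩
    · have h2 : IsOpenMap (QuotientGroup.mk' Z) := QuotientGroup.isOpenMap_coe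
      have h3 := h2.image_mem_nhds (hO.mem_nhds h1O)
      simpa using h3
    · rintro v ⟨u, hu, huv⟩ x
      have h4 : u⁻¹ * κ v ∈ Z := QuotientGroup.eq.1 huv
      have h5 : cj V v c x = al κ V u c x := by
        rw [← al_coe hF hd sc.acont]
        have e : κ v = u * (⟨u⁻¹ * κ v, h4⟩ : Z) := by simp
        rw [e, ← al_al hF hd sc.acont]
        have e2 : al κ V (((⟨u⁻¹ * κ v, h4⟩ : Z)) : H) c = c := funext fun y => hz _ y
        rw [e2]
      change ‖cj V v c x - c x‖ ≤ ε
      rw [h5]
      haveI := comap_neBot hd u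
      have h6 := (tendsto_al hF hd sc.acont u x).sub_const (c x) |>.norm
      refine le_of_tendsto h6 ?_
      filter_upwards [preimage_mem_comap (hO.mem_nhds hu)] with w hw
      exact hUU w (hOU hw) x
  · intro hc0
    apply h0
    funext x
    have h1 : c x = 0 := by rw [hc0]; rfl
    refine ContinuousLinearMap.ext fun u => ?_
    have h2 : ∀ z : Z, 0 ≤ (⟪f z x u, u⟫_ℂ).re := by
      intro z
      have e : f z x = adjoint (al κ V (z : H) b x) * al κ V (z : H) b x := by
        rw [hf]
        beta_reduce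
        rw [hbb, al_mul hF hd (ACont.adj hF hb.acont) hb.acont (hb.toFd.adj hF.reg).bdd hb.bdd,
          al_adj hF hd hb.acont]
      rw [e, mul_ap, adjoint_inner_left]
      exact inner_self_nonneg (𝕜 := ℂ)
    have h3 : (⟪c x u, u⟫_ℂ).re = ∑ z : Z, (⟪f z x u, u⟫_ℂ).re := by
      rw [hc]
      simp only [sum_apply, sum_inner, Complex.re_sum]
    rw [h1, zero_apply, inner_zero_left, Complex.zero_re] at h3
    have h4 := (Finset.sum_eq_zero_iff_of_nonneg fun z _ => h2 z).1 h3.symm 1 (Finset.mem_univ _)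
    have h5 : f 1 x = adjoint (b x) * b x := by
      rw [hf]
      beta_reduce
      rw [Subgroup.coe_one, al_one hF hd sbb.acont]
    rw [h5, mul_ap, adjoint_inner_left, inner_self_eq_norm_sq_to_K] at h4
    have h6 : ‖b x u‖ ^ 2 = 0 := by exact_mod_cast h4
    have h7 : b x u = 0 := by simpa using h6
    rw [h7]
    rfl

end Vale.Agent.P092.QT.H328
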